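import Crest.Agent.X212.Fred93.Cpt

/-!
# X212 / Cut31, part Fr (helper31): approximate kernels of a Fredholm operator converge
-/

set_option autoImplicit false
set_option linter.unusedSectionVars false
open Filter Topology

namespace Crest.Agent.X212.Cut31
open Fred93

variable {α H K : Type} [NormedAddCommGroup H] [NormedSpace ℝ H] [CompleteSpace H]
  [NormedAddCommGroup K] [NormedSpace ℝ K] [CompleteSpace K]

/-- bounded families `x` with `D x → 0` converge along ultrafilters -/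
theorem fr_lim0 (𝒰 : Ultrafilter α) {D : H →L[ℝ] K} (hD : D.IsFredholm) {x : α → H} {C : ℝ}
    (hx : ∀ᶠ i in (𝒰 : Filter α), ‖x i‖ ≤ C) (h0 : Tendsto (fun i => D (x i)) 𝒰 (𝓝 0)) :
    ∃ x₀, Tendsto x 𝒰 (𝓝 x₀) ∧ D x₀ = 0 := by
  obtain ⟨_, Q, _, π, B, -, -, hB⟩ := exists_block hD
  have := FiniteDimensional.proper_real D.ker
  obtain ⟨c, -, hc⟩ := (isCompact_closedBall (0 : D.ker) (‖π‖ * C)).ultrafilter_le_nhds
    (𝒰.map fun i => π (x i)) (le_principal_iff.2 (hx.mono fun i hi => mem_closedBall_zero_iff.2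
      ((π.le_opNorm _).trans (mul_le_mul_of_nonneg_left hi (norm_nonneg _)))))
  have e : ∀ v, (B.symm (D v, π v)).1 = v := fun v => by
    have : B (v, 0) = (D v, π v) := (congrArg (fun f : H × Q →L[ℝ] K × D.ker => f (v, 0)) hB).trans
      (by simp)
    rw [← this, B.symm_apply_apply]
  have h1 := (continuous_fst.comp B.symm.continuous).continuousAt.tendsto.comp (h0.prodMk_nhds hc)
  have h2 : Tendsto x 𝒰 (𝓝 (B.symm (0, c)).1) := h1.congr fun i => e _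
  exact ⟨_, h2, tendsto_nhds_unique ((D.continuous.tendsto _).comp h2) h0⟩

/-- **FR** -/
theorem fr_lim (𝒰 : Ultrafilter α) {G : α → Type} [∀ i, NormedAddCommGroup (G i)]
    [∀ i, NormedSpace ℝ (G i)] {D₀ : H →L[ℝ] H} (hD : D₀.IsFredholm) {D : ∀ i, G i →L[ℝ] G i}
    {R : ∀ i, G i →L[ℝ] H} {ψ : ∀ i, G i}
    (h : Tendsto (fun i => ‖D₀ ∘L R i - R i ∘L D i‖) 𝒰 (𝓝 0))
    (hψ : ∀ᶠ i in (𝒰 : Filter α), ‖ψ i‖ = 1 ∧ ‖R i (ψ i)‖ = 1 ∧ D i (ψ i) = 0) :
    ∃ ψ₀, Tendsto (fun i => R i (ψ i)) 𝒰 (𝓝 ψ₀) ∧ ‖ψ₀‖ = 1 ∧ D₀ ψ₀ = 0 := by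
  obtain ⟨ψ₀, h1, h2⟩ := fr_lim0 𝒰 hD (x := fun i => R i (ψ i)) (hψ.mono fun _ k => k.2.1.le)
    (squeeze_zero_norm' (hψ.mono fun i k => by
      simpa [k.1, k.2.2] using (D₀ ∘L R i - R i ∘L D i).le_opNorm (ψ i)) h)
  exact ⟨ψ₀, h1, tendsto_nhds_unique_of_eventuallyEq h1.norm tendsto_const_nhds
    (hψ.mono fun _ k => k.2.1), h2⟩

/-- exact intertwiners and convergence in norm -/
theorem itw_lim {l : Filter α} {G : α → Type} [∀ i, NormedAddCommGroup (G i)]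
    [∀ i, NormedSpace ℝ (G i)] {D₀ : H →L[ℝ] H} {D₁ : α → H →L[ℝ] H} {D : ∀ i, G i →L[ℝ] G i}
    {R : ∀ i, G i →L[ℝ] H} (h : Tendsto D₁ l (𝓝 D₀))
    (e : ∀ᶠ i in l, (∀ v, ‖R i v‖ = ‖v‖) ∧ ∀ v, D₁ i (R i v) = R i (D i v)) :
    Tendsto (fun i => ‖D₀ ∘L R i - R i ∘L D i‖) l (𝓝 0) := by
  refine squeeze_zero' (.of_forall fun _ => norm_nonneg _) (e.mono fun i k => ?_)
    (tendsto_iff_norm_sub_tendsto_zero.1 h)
  refine ContinuousLinearMap.opNorm_le_bound _ (norm_nonneg _) fun v => ?_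
  rw [norm_sub_rev, ← k.1 v]
  simpa [k.2] using (D₀ - D₁ i).le_opNorm (R i v)

section alg
variable {l : Filter α} {G : α → Type} [∀ i, NormedAddCommGroup (G i)] [∀ i, NormedSpace ℝ (G i)]
  {R : ∀ i, G i →L[ℝ] H}

variable (l R) in
/-- `D i → D₀` in the gauges `R i` -/
abbrev IL (D : ∀ i, G i →L[ℝ] G i) (D₀ : H →L[ℝ] H) : Prop :=
  Tendsto (fun i => ‖D₀ ∘L R i - R i ∘L D i‖) l (𝓝 0)

variable {D D' : ∀ i, G i →L[ℝ] G i} {D₀ D₀' : H →L[ℝ] H}

theorem add_lim (h : IL l R D D₀) (h' : IL l R D' D₀') : IL l R (fun i => D i + D' i) (D₀ + D₀') :=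
  squeeze_zero (fun _ => norm_nonneg _) (fun i => by
    rw [ContinuousLinearMap.add_comp, ContinuousLinearMap.comp_add, add_sub_add_comm]
    exact norm_add_le _ _) ((h.add h').trans_eq (congrArg 𝓝 (add_zero 0)))

theorem sub_lim (h : IL l R D D₀) (h' : IL l R D' D₀') : IL l R (fun i => D i - D' i) (D₀ - D₀') :=
  squeeze_zero (fun _ => norm_nonneg _) (fun i => by
    rw [ContinuousLinearMap.sub_comp, ContinuousLinearMap.comp_sub, sub_sub_sub_comm]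
    exact norm_sub_le _ _) ((h.add h').trans_eq (congrArg 𝓝 (add_zero 0)))

theorem zero_lim : IL l R (fun _ => 0) 0 := by simpa [IL] using tendsto_const_nhds

theorem sum_lim {κ : Type} (s : Finset κ) {D : κ → ∀ i, G i →L[ℝ] G i} {D₀ : κ → H →L[ℝ] H}
    (h : ∀ j ∈ s, IL l R (D j) (D₀ j)) : IL l R (fun i => ∑ j ∈ s, D j i) (∑ j ∈ s, D₀ j) := by
  classical
  induction s using Finset.induction_on with
  | empty => simpa using zero_lim
  | insert a s ha ih =>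
    simpa only [Finset.sum_insert ha] using add_lim (h a (Finset.mem_insert_self _ _))
      (ih fun j hj => h j (Finset.mem_insert_of_mem hj))

theorem smul_lim (h : IL l R D D₀) (hR : ∀ᶠ i in l, ∀ v, ‖R i v‖ = ‖v‖) {z : α → ℝ} {z₀ : ℝ}
    (hz : Tendsto z l (𝓝 z₀)) : IL l R (fun i => z i • D i) (z₀ • D₀) := by
  have t := (hz.norm.mul h).add ((tendsto_iff_norm_sub_tendsto_zero.1 hz).mul_const ‖D₀‖)
  rw [mul_zero, zero_mul, add_zero] at t
  refine squeeze_zero' (.of_forall fun _ => norm_nonneg _) (hR.mono fun i k => ?_) t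
  have e : (z₀ • D₀) ∘L R i - R i ∘L (z i • D i) =
      z i • (D₀ ∘L R i - R i ∘L D i) - (z i - z₀) • D₀ ∘L R i := by
    ext v; simp [sub_smul, smul_sub]
  rw [e]
  have b : ‖D₀ ∘L R i‖ ≤ ‖D₀‖ := ContinuousLinearMap.opNorm_le_bound _ (norm_nonneg _) fun v => by
    rw [← k v]
    exact D₀.le_opNorm _
  refine (norm_sub_le _ _).trans ?_
  rw [norm_smul, norm_smul]
  gcongr

end alg

end Crest.Agent.X212.Cut31
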