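import Crest.Agent.X212.Cut31.Pth
import Crest.Agent.X212.Cut31.Fr
import Crest.Agent.X212.Cmp73.Lvc
import Crest.Agent.X212.Cmp73.Val
import Crest.Agent.X212.Tmc7.Opn
import Crest.Agent.X212.Hol14.Den

/-!
# X212 / Cut31, part Gs (helper31): the rows of convergent cuts converge
-/

set_option autoImplicit false
set_option linter.unusedSectionVars false
noncomputable section
open scoped Manifold ContDiff Topology
open Set Function Filter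

namespace Crest.Agent.X212.Cut31
open An Cmp73 Csm97 Cnt93 Eqv71
open Wz78 (SA)

variable {E : Type} [NormedAddCommGroup E] [NormedSpace ℝ E] [FiniteDimensional ℝ E]
  [MeasurableSpace E] [BorelSpace E]
  {HM : Type} [TopologicalSpace HM] {I : ModelWithCorners ℝ E HM} [I.Boundaryless]
  {E₀ : Type} [NormedAddCommGroup E₀] [NormedSpace ℝ E₀] [FiniteDimensional ℝ E₀]
  [MeasurableSpace E₀] [BorelSpace E₀]
  {H₀ : Type} [TopologicalSpace H₀] {I₀ : ModelWithCorners ℝ E₀ H₀} [I₀.Boundaryless]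
  {M : Type} [TopologicalSpace M] [ChartedSpace H₀ M] [IsManifold I₀ ∞ M] [MeasurableSpace M]
  [T2Space M] [BorelSpace M] [SecondCountableTopology M]
  {ι lam : Type} [Fintype ι] [Fintype lam] {α : Type}
  {X : α → Type} [∀ n, TopologicalSpace (X n)] [∀ n, ChartedSpace HM (X n)]
  [∀ n, IsManifold I ∞ (X n)] [∀ n, MeasurableSpace (X n)] [∀ n, T2Space (X n)]
  [∀ n, BorelSpace (X n)] [∀ n, SecondCountableTopology (X n)] {r : ℕ}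
  {N : Type} [NormedAddCommGroup N] [NormedSpace ℝ N]

section cv
variable {l : Filter α} {Ω : Set M}

theorem cv_lsum {τ : α → Type} {τ' : Type} {R : (∀ n, τ n) → (Unit → τ') → Prop}
    {L : ∀ n, List (τ n)} {L' : Unit → List τ'} (hL : FL R L L') {T : ∀ n, τ n → M → N}
    {T' : τ' → M → N} (h : ∀ t t', R t t' → Cv I₀ l Ω (fun n => T n (t n)) (T' (t' ()))) :
    Cv I₀ l Ω (fun n x => ((L n).map fun t => T n t x).sum)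
      fun x => ((L' ()).map fun t => T' t x).sum := by
  induction hL with
  | nil => exact Cv.const 0
  | cons a _ ih => simpa only [List.map_cons, List.sum_cons] using (h _ _ a).add ih

theorem cv_inv {V : Type} [NormedAddCommGroup V] [InnerProductSpace ℝ V] [FiniteDimensional ℝ V]
    {f : α → M → V} {f' : M → V} (h : Cv I₀ l Ω f f') (h0 : ∀ x ∈ Ω, f' x ≠ 0) :
    Cv I₀ l Ω (fun n x => ‖f n x‖⁻¹) fun x => ‖f' x‖⁻¹ :=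
  h.post (Φ := fun v => ‖v‖⁻¹) fun x hx => (isOpen_ne.eventually_mem (h0 x hx)).mono fun _ hv =>
    (contDiffAt_norm ℝ hv).inv (norm_ne_zero_iff.2 hv)

theorem cv_c2 {B : Base M ι lam} {m : Md M ι lam} (H : m.OK I₀ B) {w : α → M → Eu (ι × ι)}
    {w' : M → Eu (ι × ι)} (h : Cv I₀ l Ω w w') :
    Cv I₀ l Ω (fun n x => m.c2 x (w n x)) fun x => m.c2 x (w' x) :=
  Cv.sum fun s => (h.clm (EuclideanSpace.proj s)).smul
    ((Cv.fixed' (H.sρ s.1)).mul (Cv.fixed' (H.sρ s.2)))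

end cv

/-- a cut seen through `ψ` -/
def pc {Y : Type} (ψ : M → Y) (k : Cut Y lam) (k₀ : Cut M lam) : Cut M lam :=
  ⟨k₀.γ, k.w.map fun t => (t.1 ∘ ψ, t.2.1 ∘ ψ, t.2.2 ∘ ψ),
    k.e.map fun t => (t.1 ∘ ψ, t.2.1 ∘ ψ, t.2.2 ∘ ψ)⟩

variable (g : Gs I I₀ M ι lam X)

/-- convergent triples -/
def C3 {N : Type} [NormedAddCommGroup N] [NormedSpace ℝ N]
    (t : ∀ n, (X n → N) × (X n → ℝ) × (X n → ℝ)) (t' : Unit → (M → N) × (M → ℝ) × (M → ℝ)) : Prop :=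
  Cv I₀ g.l g.Pᶜ (fun n x => (t n).1 (g.ψ n x)) (t' ()).1 ∧
    Cv I₀ g.l g.Pᶜ (fun n x => (t n).2.1 (g.ψ n x)) (t' ()).2.1 ∧
    Cv I₀ g.l g.Pᶜ (fun n x => (t n).2.2 (g.ψ n x)) (t' ()).2.2

variable (k : ∀ n, Cut (X n) lam) (k₀ : Cut M lam)

/-- convergent cuts -/
structure CK : Prop where
  ok₀ : k₀.OK g.B₀ g.G₀.F
  γ : ∀ᶠ n in (g.l : Filter α), ∀ θ s, (k n).γ θ s = g.ψ n (k₀.γ θ s)
  w : FL (C3 g) (fun n => (k n).w) fun _ => k₀.w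
  e : FL (C3 g) (fun n => (k n).e) fun _ => k₀.e
  cb : ∀ᶠ n in (g.l : Filter α),
    (∀ t ∈ (k n).w, (g.G n).F.Cb t.1 ∧ (g.G n).F.Cd t.2.1 ∧ (g.G n).F.Cd t.2.2) ∧
    ∀ t ∈ (k n).e, (g.G n).F.Cb t.1 ∧ (g.G n).F.Cd t.2.1 ∧ (g.G n).F.Cd t.2.2

variable {c : ∀ n, Cfg (X n) ι lam r} {b : Cfg M ι lam r} (u : ∀ n, M → CL (c n).m.V b.m.V)

/-- the gauges on Hardy spaces -/
abbrev R (n : α) : CL ((k n).H (g.B n) (c n).m) (k₀.H g.B₀ b.m) :=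
  Rh (k n) k₀ (g.B n) g.B₀ (fun _ => u n k₀.x0) 1

/-- the cuts seen on `M` -/
abbrev kp (n : α) : Cut M lam := pc (g.ψ n) (k n) k₀

/-- the transported connection in the limit frame -/
def Aw (n : α) (a : ι) (x : M) : En (Fin b.m.N) :=
  ∑ a', Num57.tl (g.H n).F x a' (g.G₀.F.e a x) • g.tW c b u n a' x

theorem R_eq (n : α) : R g k k₀ u n = Uh _ _ _ _ (u n k₀.x0) := by
  rw [R, Rh, show csE b.m.J (1 : Circle) = 1 from csL_one _]; rfl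

variable {g k k₀ u} (hg : g.OK) {n : α} {y : M}
include hg

theorem dd_eq (hy : y ∈ (g.ψ n).source) (f f' : X n → ℝ) :
    g.B₀.dd (g.H n).F (f ∘ g.ψ n) (f' ∘ g.ψ n) y = (g.B n).dd (g.G n).F f f' (g.ψ n y) := by
  simp only [Base.dd, hg.sd_eq hy,
    fun a (f : X n → ℝ) => (hg.rel n).D hy a (u := f ∘ g.ψ n) (u' := f) (.of_forall fun _ => rfl)]

theorem om_eq (hy : y ∈ (g.ψ n).source) :
    (kp g k k₀ n).om g.B₀ (g.H n).F y = (k n).om (g.B n) (g.G n).F (g.ψ n y) :=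
  congrArg List.sum (List.map_map.trans (List.map_congr_left fun _ _ =>
    congrArg _ (dd_eq hg hy _ _)))

theorem cv_dd {f f₁ : ∀ n, X n → ℝ} {f' f₁' : M → ℝ}
    (h : Cv I₀ g.l g.Pᶜ (fun n x => f n (g.ψ n x)) f')
    (h₁ : Cv I₀ g.l g.Pᶜ (fun n x => f₁ n (g.ψ n x)) f₁') :
    Cv I₀ g.l g.Pᶜ (fun n => g.B₀.dd (g.H n).F (f n ∘ g.ψ n) (f₁ n ∘ g.ψ n))
      (g.B₀.dd g.G₀.F f' f₁') :=
  have o := hg.fin.isClosed.isOpen_compl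
  (Cv.pi fun s => Cv.sum fun t => (Cv.fixed' (sm_sd hg.B₀ s t)).mul
    ((hg.cv_D o h t.1).mul (hg.cv_D o h₁ t.2))).clm
    ((PiLp.continuousLinearEquiv 2 ℝ fun _ : ι × ι => ℝ).symm : CL (ι × ι → ℝ) (Eu (ι × ι)))

section pt
variable (H : (c n).m.OK I (g.B n)) (q : g.Nr c b u n y)
include H q

omit hg H in
theorem c2_it' (w : Eu (ι × ι)) : It (u n y) ((c n).m.c2 (g.ψ n y) w) (b.m.c2 y w) :=
  It.sum _ fun _ => ((It.of (q.ρ _)).mul (It.of (q.ρ _))).smul _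

theorem pi_it' : It (u n y) ((k n).pi (g.B n) (g.G n).F (c n).m (g.ψ n y))
    ((kp g k k₀ n).pi g.B₀ (g.H n).F b.m y) := by
  rw [Cut.pi, Cut.pi, om_eq hg q.src]
  exact ((It.of (q.me.pp q.be (hg.B n) hg.B₀ H)).sub
    ((It.mul q.me.J.symm (c2_it' q _)).smul _)).smul _

theorem q0_it' : It (u n y) ((k n).q0 (g.B n) (g.G n).F (c n).m (g.ψ n y))
    ((kp g k k₀ n).q0 g.B₀ (g.H n).F b.m y) :=
  ((pi_it' hg H q).mul (It.lsum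
    (R := fun t t' => t' = (t.1 ∘ g.ψ n, t.2.1 ∘ g.ψ n, t.2.2 ∘ g.ψ n))
    (List.forall₂_map_right_iff.2 (List.forall₂_same.2 fun _ _ => rfl)) fun t _ _ _ e => by
      rw [e, dd_eq hg q.src]
      exact (c2_it' q _).mul (It.of (q.j _)))).mul (pi_it' hg H q)

theorem qu_it' (H' : b.m.OK I₀ g.B₀) : It (u n y) ((k n).qu (g.B n) (g.G n).F (c n).m (g.ψ n y))
    ((kp g k k₀ n).qu g.B₀ (g.H n).F b.m y) := by
  have h := q0_it' (k := k) (k₀ := k₀) hg H q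
  rw [Cut.qu, Cut.qu, h.norm_hs q.me.uu q.me.uu' (p_q0 _ H) (q0_p _ H) (q0_p _ H')]
  exact h.smul _

end pt

section path
variable (d : Dat I₀ k₀) (nr : ∀ x ∈ k₀.supp, g.Nr c b u n x)
  (hγ : ∀ θ s, (k n).γ θ s = g.ψ n (k₀.γ θ s))
include d nr hγ

theorem vel_eq (θ : Ci) (s : ℝ) (a : ι) : (k n).vel (g.G n).F θ s a = k₀.vel (g.H n).F θ s a := by
  have hx := (nr (k₀.γ θ s) ⟨(θ, s), rfl⟩).src
  have h1 : mfderiv 𝓘(ℝ, ℝ) I ((k n).γ θ) s (1 : ℝ) =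
      ∑ a, k₀.vel (g.H n).F θ s a • Num57.ee (g.G n).F (g.ψ n (k₀.γ θ s)) a := by
    rw [show (k n).γ θ = g.ψ n ∘ k₀.γ θ from funext (hγ θ), mfderiv_comp s
      (((hg.rel n).ld _ hx).contMDiffAt.mdifferentiableAt (by simp))
      ((d.path θ s).mdifferentiableAt (by simp))]
    show mfderiv I₀ I (g.ψ n) (k₀.γ θ s) (mfderiv 𝓘(ℝ, ℝ) I₀ (k₀.γ θ) s (1 : ℝ)) = _
    rw [← vl_sum (F := (g.H n).F), map_sum]
    exact Finset.sum_congr rfl fun a _ => (map_smul _ _ _).trans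
      (congrArg _ ((hg.rel n).e a _ hx))
  rw [Cut.vel, h1, hγ, Num57.tl_comb]
  simp only [← (hg.rel n).P hx]
  exact (Num57.tl_comb _ _ a _).symm.trans (congrArg _ ((Num57.cf _ _).ex _))

omit hg d nr hγ in
theorem vf_Aw (θ : Ci) (s : ℝ) : vf k₀ g.G₀.F (Aw g u n) θ s =
    ∑ a, k₀.vel (g.H n).F θ s a • g.tW c b u n a (k₀.γ θ s) := by
  simp only [vf, Aw, Finset.smul_sum, smul_smul]
  rw [Finset.sum_comm]
  refine Finset.sum_congr rfl fun a _ => ?_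
  rw [← Finset.sum_smul]
  exact congrArg (· • _) ((Finset.sum_congr rfl fun a' _ => (map_smul _ _ _).symm).trans
    ((map_sum (Num57.tl (g.H n).F (k₀.γ θ s) a) _ _).symm.trans
      (congrArg _ ((Num57.cf g.G₀.F (k₀.γ θ s)).ex _))))

theorem A0_pr' (θ : Ci) : PR ((k n).A0 (g.G n).F (c n).m (c n).W θ) (vf k₀ g.G₀.F (Aw g u n) θ)
    fun s => u n (k₀.γ θ s) := fun s => by
  have q := nr (k₀.γ θ s) ⟨(θ, s), rfl⟩
  refine (d.der (g.H n).F q.su.md).congr_deriv ?_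
  rw [vf_Aw, Cut.A0, ContinuousLinearMap.comp_finsetSum, ContinuousLinearMap.finsetSum_comp,
    ← Finset.sum_sub_distrib]
  refine Finset.sum_congr rfl fun a _ => ?_
  rw [ContinuousLinearMap.comp_smul, ContinuousLinearMap.smul_comp, vel_eq hg d nr hγ, hγ, ← smul_sub]
  exact congrArg _ (eq_sub_of_add_eq (q.itw a))

theorem dat_of (cb : (∀ t ∈ (k n).w, (g.G n).F.Cb t.1 ∧ (g.G n).F.Cd t.2.1 ∧ (g.G n).F.Cd t.2.2) ∧
    ∀ t ∈ (k n).e, (g.G n).F.Cb t.1 ∧ (g.G n).F.Cd t.2.1 ∧ (g.G n).F.Cd t.2.2)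
    (H : (c n).m.OK I (g.B n)) (H' : b.m.OK I₀ g.B₀)
    (h1 : ∀ x ∈ k₀.supp, (kp g k k₀ n).om g.B₀ (g.H n).F x ≠ 0)
    (h2 : ∀ x ∈ k₀.supp, (kp g k k₀ n).q0 g.B₀ (g.H n).F b.m x ≠ 0) :
    (k n).OK (g.B n) (g.G n).F where
  sm y := by
    simp only [hγ]
    exact ((hg.rel n).ld _ (nr _ ⟨(y.1, y.2), rfl⟩).src).contMDiffAt.comp y (d.sm y)
  h0 θ s h := by rw [Cut.x0, hγ, hγ, d.h0 θ s h]; rfl
  h1 θ s h := by rw [hγ, hγ, d.h1 θ s h]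
  sw := cb.1
  se := cb.2
  om θ s := by
    rw [hγ, ← om_eq (k₀ := k₀) hg (nr (k₀.γ θ s) ⟨(θ, s), rfl⟩).src]; exact h1 _ ⟨(θ, s), rfl⟩
  q0 m hm θ s := Tmc7.q0_all (hg.B n) (hg.G n).P H hm fun z => h2 (k₀.γ θ s) ⟨(θ, s), rfl⟩ (by
    have q := nr (k₀.γ θ s) ⟨(θ, s), rfl⟩
    rw [hγ] at z
    rw [(q0_it' hg H q).eq_conj q.me.uu' (q0_p _ H')]
    exact (congrArg (fun T => _ ∘L T ∘L _) z).trans (by simp))

variable (ha : (c n).Adm (g.B n) (g.G n)) (H' : b.m.OK I₀ g.B₀) (ok : (k n).OK (g.B n) (g.G n).F)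
  (hA : ∀ a, ∀ x ∈ k₀.supp, SA I₀ (Aw g u n a) x)
  (hπ : ∀ x ∈ k₀.supp, SA I₀ ((kp g k k₀ n).pi g.B₀ (g.H n).F b.m) x)
  (hq : ∀ x ∈ k₀.supp, SA I₀ ((kp g k k₀ n).qu g.B₀ (g.H n).F b.m) x)
include ha H' ok hA hπ hq

theorem trp_nat' (θ : Ci) (s : ℝ) : trp (ac k₀ g.G₀.F (Aw g u n) ((kp g k k₀ n).pi g.B₀ (g.H n).F b.m)
      ((kp g k k₀ n).qu g.B₀ (g.H n).F b.m) θ) s ∘L u n k₀.x0 =
    u n (k₀.γ θ s) ∘L trp ((k n).A2 (g.B n) (g.G n).F (c n).m (c n).W θ) s := by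
  have h := (A0_pr' hg d nr hγ θ).a2 ((cd_pi (hg.B n) ok ha.ok θ).differentiable (by simp))
    ((cd_path d hπ θ).differentiable (by simp))
    (fun s => by rw [hγ]; exact pi_it' hg ha.ok (nr _ ⟨(θ, s), rfl⟩))
    ((cd_qu (hg.B n) ok ha.ok θ).differentiable (by simp)) ((cd_path d hq θ).differentiable (by simp))
    fun s => by rw [hγ]; exact qu_it' hg ha.ok (nr _ ⟨(θ, s), rfl⟩) H'
  rw [← Cnt93.A2_eq] at h
  rw [← d.h0 θ 0 le_rfl]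
  exact h.trp (cont_A2 (hg.B n) ok ha.ok ha.conn θ) ((ac_cont d hA hπ hq).uncurry_left θ) s

theorem sym_it' (θ : Ci) : It (u n k₀.x0) ((k n).sym (g.B n) (g.G n).F (c n).m (c n).W θ)
    (Ps k₀ g.G₀.F (b.m.p k₀.x0) (b.m.pp g.B₀ k₀.x0) (Aw g u n)
      ((kp g k k₀ n).pi g.B₀ (g.H n).F b.m) ((kp g k k₀ n).qu g.B₀ (g.H n).F b.m) θ) := by
  have q := nr k₀.x0 ⟨(0, 0), rfl⟩
  have e0 : (k n).x0 = g.ψ n k₀.x0 := hγ 0 0
  have h0 := trp_nat' hg d nr hγ ha H' ok hA hπ hq 0 1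
  have h1 := trp_nat' hg d nr hγ ha H' ok hA hπ hq θ 1
  have h2 := trp_p (hg.B n) (hg.G n) ok ha.ok ha.conn θ 1
  have h3 := pi_it' (k := k) (k₀ := k₀) hg ha.ok q
  have h4 := (nr (k₀.γ 0 1) ⟨(0, 1), rfl⟩).me.uu
  rw [d.h1 θ 1 le_rfl] at h1
  rw [ok.h1 θ 1 le_rfl, hγ, e0] at h2
  rw [Ps_apply d hA hπ hq, Cut.sym, e0, mul_add]
  refine It.add (It.of fun v => ?_) ?_
  · have h5 := congrArg trn h0
    rw [trn_comp, trn_comp] at h5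
    have f := fun {κ κ' : Type} [Fintype κ] [Fintype κ'] {S T : CL (Eu κ) (Eu κ')} (e : S = T) v =>
      congrArg (fun T : CL (Eu κ) (Eu κ') => T v) e
    have f1 := f h1
    have f2 := f h2
    have f4 := f h4
    have f5 := f h5
    have f6 := f q.me.uu'
    have f7 := f (p_pi (k n) (F := (g.G n).F) (x := g.ψ n k₀.x0) ha.ok)
    simp only [ContinuousLinearMap.comp_apply, mul_apply_eq_comp] at f1 f2 f4 f5 f6 f7 ⊢
    rw [h3.app, f1, ← f6, f5, f4, ← f2, f7]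
  · rw [mul_sub, Wz78.p_pp H', p_pi _ H']
    exact (It.of (q.me.pp q.be (hg.B n) hg.B₀ ha.ok)).sub h3

end path

omit hg in
/-- a fixed cut on a fixed manifold -/
theorem CK.const {g : Gs I₀ I₀ M ι lam fun _ : α => M} (hψ : ∀ n x, g.ψ n x = x) {k : Cut M lam}
    (h₀ : k.OK g.B₀ g.G₀.F) (h : ∀ᶠ n in (g.l : Filter α), k.OK (g.B n) (g.G n).F) :
    CK g (fun _ => k) k where
  ok₀ := h₀
  γ := .of_forall fun n _ _ => (hψ n _).symm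
  w := by
    simpa only [List.map_id'] using FL.map (R := C3 g) (f := fun _ t => t) (f' := fun _ t => t) k.w
      fun t ht => by
        simp only [C3, hψ]
        exact ⟨Cv.fixed' ((dat h₀).sw t ht).1, Cv.fixed' ((dat h₀).sw t ht).2.1,
          Cv.fixed' ((dat h₀).sw t ht).2.2⟩
  e := by
    simpa only [List.map_id'] using FL.map (R := C3 g) (f := fun _ t => t) (f' := fun _ t => t) k.e
      fun t ht => by
        simp only [C3, hψ]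
        exact ⟨Cv.fixed' ((dat h₀).se t ht).1, Cv.fixed' ((dat h₀).se t ht).2.1,
          Cv.fixed' ((dat h₀).se t ht).2.2⟩
  cb := h.mono fun _ k => ⟨k.sw, k.se⟩

namespace CK
variable (K : CK g k k₀)
include K

theorem cv_om : Cv I₀ g.l g.Pᶜ (fun n => (kp g k k₀ n).om g.B₀ (g.H n).F) (k₀.om g.B₀ g.G₀.F) :=
  (cv_lsum K.w (T := fun n t x => t.1 (g.ψ n x) • g.B₀.dd (g.H n).F (t.2.1 ∘ g.ψ n) (t.2.2 ∘ g.ψ n) x)
    (T' := fun t x => t.1 x • g.B₀.dd g.G₀.F t.2.1 t.2.2 x)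
    fun _ _ h => h.1.smul (cv_dd hg h.2.1 h.2.2)).congr
    (fun _ _ => .of_forall fun _ => congrArg List.sum List.map_map) fun _ _ => rfl

section om
variable (H' : b.m.OK I₀ g.B₀) {Ω : Set M} (hΩ : Ω ⊆ g.Pᶜ) (h1 : ∀ x ∈ Ω, k₀.om g.B₀ g.G₀.F x ≠ 0)
include H' hΩ h1

theorem cv_pi : Cv I₀ g.l Ω (fun n => (kp g k k₀ n).pi g.B₀ (g.H n).F b.m)
    (k₀.pi g.B₀ g.G₀.F b.m) :=
  have o := (K.cv_om hg).mono le_rfl hΩ
  (((Cv.fixed' (Wz78.sm_pp H' hg.B₀)).sub (((Cv.const (2 : ℝ)⁻¹).mul (cv_inv o h1)).smul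
    ((Cv.const b.m.J).mul (cv_c2 H' o)))).const_smul (1 / 2)).congr
    (fun _ _ => .of_forall fun _ => by simp only [Cut.pi, mul_inv]) fun _ _ => by
      simp only [Cut.pi, mul_inv]

theorem cv_q0 : Cv I₀ g.l Ω (fun n => (kp g k k₀ n).q0 g.B₀ (g.H n).F b.m)
    (k₀.q0 g.B₀ g.G₀.F b.m) :=
  have p := K.cv_pi hg H' hΩ h1
  ((p.mul ((cv_lsum K.e (T := fun n t x => b.m.c2 x
      (g.B₀.dd (g.H n).F (t.2.1 ∘ g.ψ n) (t.2.2 ∘ g.ψ n) x) * b.m.j x (t.1 (g.ψ n x)))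
    (T' := fun t x => b.m.c2 x (g.B₀.dd g.G₀.F t.2.1 t.2.2 x) * b.m.j x (t.1 x))
    fun _ _ h => (cv_c2 H' (cv_dd hg h.2.1 h.2.2)).mul ((Cv.fixed' H'.sj).app h.1)).mono le_rfl
      hΩ)).mul p).congr
    (fun _ _ => .of_forall fun _ => congrArg (_ * List.sum · * _) List.map_map) fun _ _ => rfl

theorem cv_qu (h2 : ∀ x ∈ Ω, k₀.q0 g.B₀ g.G₀.F b.m x ≠ 0) :
    Cv I₀ g.l Ω (fun n => (kp g k k₀ n).qu g.B₀ (g.H n).F b.m) (k₀.qu g.B₀ g.G₀.F b.m) :=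
  have q := K.cv_q0 hg H' hΩ h1
  ((Cv.const (2 : ℝ)).mul (cv_inv (q.clm hsL) fun x hx e => h2 x hx (by
    rw [← opL_hsL (k₀.q0 g.B₀ g.G₀.F b.m x), e, map_zero]))).smul q

end om

variable {S : Set M} (ha : ∀ n, (c n).Adm (g.B n) (g.G n)) (h : g.Lim c b S u)
  (hS : Disjoint k₀.supp S)

omit K in
include h in
theorem cv_Aw (a : ι) : Cv I₀ g.l Sᶜ (fun n => Aw g u n a) (b.W a) := by
  have f : Loc66.FCv g.l Sᶜ (fun n => (g.H n).F) g.G₀.F := fun a =>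
    ⟨fun k x _ => (hg.e a).mb k x, fun x _ => (hg.e a).pt x⟩
  refine (Cv.sum fun a' => (f.fT h.op (Loc66.VCv.fixed (g.G₀.F.sm a)) a').smul (h.cW a')).congr
    (fun _ _ => .of_forall fun q => Finset.sum_congr rfl fun a' _ => congrArg (· • _) (tl_th ..))
    fun x _ => (h.adm.conn.cc.proj a x).symm.trans (Finset.sum_congr rfl fun a' _ =>
      congrArg (· • _) ?_)
  rw [← hg.G₀.P, g.G₀.F.P_symm]
  exact ((Num57.cf g.G₀.F x).te a' a).symm.trans (tl_th ..)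

include h hS

theorem exO : ∃ Ω, IsOpen Ω ∧ k₀.supp ⊆ Ω ∧ Ω ⊆ Sᶜ ∧ (∀ x ∈ Ω, k₀.om g.B₀ g.G₀.F x ≠ 0) ∧
    ∀ x ∈ Ω, k₀.q0 g.B₀ g.G₀.F b.m x ≠ 0 := by
  have c1 : Continuous (k₀.om g.B₀ g.G₀.F) :=
    continuous_iff_continuousAt.2 fun _ => (sa_om hg.B₀ K.ok₀).continuousAt
  refine ⟨(Sᶜ ∩ {x | k₀.om g.B₀ g.G₀.F x ≠ 0}) ∩ k₀.q0 g.B₀ g.G₀.F b.m ⁻¹' {0}ᶜ,
    ContinuousOn.isOpen_inter_preimage (fun x hx =>
      (sa_q0 hg.B₀ K.ok₀ h.adm.ok hx.2).continuousAt.continuousWithinAt)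
      (h.op.inter (isOpen_ne_fun c1 continuous_const)) isOpen_compl_singleton,
    fun x hx => ⟨⟨hS.notMem_of_mem_left hx, ?_⟩, ?_⟩, fun x hx => hx.1.1, fun x hx => hx.1.2,
    fun x hx => hx.2⟩ <;> obtain ⟨z, rfl⟩ := hx
  exacts [K.ok₀.om _ _, K.ok₀.q0 _ h.adm.ok _ _]

include ha

theorem nr : ∀ᶠ n in (g.l : Filter α), ∀ x ∈ k₀.supp, g.Nr c b u n x :=
  ev_compact (dat K.ok₀).isCompact_supp fun _ hx => h.nr hg ha (hS.notMem_of_mem_left hx)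

/-- **the members are good cuts** -/
theorem ok : ∀ᶠ n in (g.l : Filter α), (k n).OK (g.B n) (g.G n).F := by
  obtain ⟨Ω, -, h2, h3, h4, h5⟩ := K.exO hg h hS
  have c := (dat K.ok₀).isCompact_supp
  filter_upwards [K.nr hg ha h hS, K.γ, K.cb,
    ev_compact c (p := fun n x => (kp g k k₀ n).om g.B₀ (g.H n).F x ≠ 0) fun x hx =>
      ((K.cv_om hg).tendsto (h.sub (h3 (h2 hx)))).eventually_ne (h4 x (h2 hx)),
    ev_compact c (p := fun n x => (kp g k k₀ n).q0 g.B₀ (g.H n).F b.m x ≠ 0) fun x hx =>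
      ((K.cv_q0 hg h.adm.ok (h3.trans h.sub) h4).tendsto (h2 hx)).eventually_ne (h5 x (h2 hx))]
    with n k1 k2 k3 k4 k5
  exact dat_of hg (dat K.ok₀) k1 k2 k3 (ha n).ok h.adm.ok k4 k5

theorem hi0 : ∀ᶠ n in (g.l : Filter α), g.Nr c b u n k₀.x0 ∧ (k n).x0 = g.ψ n k₀.x0 ∧
    HI (c n).m.J ((c n).m.pp (g.B n) (k n).x0) b.m.J (b.m.pp g.B₀ k₀.x0) (u n k₀.x0) ∧
    ∀ v, ‖R g k k₀ u n v‖ = ‖v‖ := by
  filter_upwards [K.nr hg ha h hS, K.γ] with n k1 k2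
  have q := k1 k₀.x0 ⟨(0, 0), rfl⟩
  have e : (k n).x0 = g.ψ n k₀.x0 := k2 0 0
  have i : HI (c n).m.J ((c n).m.pp (g.B n) (k n).x0) b.m.J (b.m.pp g.B₀ k₀.x0) (u n k₀.x0) := by
    rw [e]; exact hi_of_me q.me q.be (hg.B n) hg.B₀ (ha n).ok h.adm.ok
  refine ⟨q, e, i, fun v => ?_⟩
  rw [R_eq]
  exact i.norm (fun a ha' => (congrArg (fun T : En _ => T a) q.me.uu).trans (by
    rw [← ha', e]; exact p_pp (ha n).ok _ _)) v

/-- **R** -/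
theorem hi : ∀ᶠ n in (g.l : Filter α),
    HI (c n).m.J ((c n).m.pp (g.B n) (k n).x0) b.m.J (b.m.pp g.B₀ k₀.x0) (u n k₀.x0) ∧
    (∀ v, ‖R g k k₀ u n v‖ = ‖v‖) ∧
    (∀ v, (R g k k₀ u n v : L2c (Fin b.m.N)) = LU (csE b.m.J (1 : Circle) ∘L u n k₀.x0) v) ∧
    ∀ (η : ℂ) v, R g k k₀ u n (Hol14.cH (c n).m (g.B n) (k n) (csE (c n).m.J η) v) =
      Hol14.cH b.m g.B₀ k₀ (csE b.m.J η) (R g k k₀ u n v) :=
  (K.hi0 hg ha h hS).mono fun n ⟨_, _, i, j⟩ => ⟨i, j, fun v => by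
    rw [R_eq, i.coe, show csE b.m.J (1 : Circle) = 1 from csL_one _]; rfl, fun η v => by
    rw [R_eq]
    exact (i.cpr (T := LU (csE (c n).m.J η)) (T' := LU (csE b.m.J η))
      (fun f => by rw [LU_LU, LU_LU, i.hJ.csE η]) v).symm⟩

/-- **T** -/
theorem T : Tendsto (fun n => ‖k₀.T g.B₀ g.G₀.F b.m b.W ∘L R g k k₀ u n -
    R g k k₀ u n ∘L (k n).T (g.B n) (g.G n).F (c n).m (c n).W‖) g.l (𝓝 0) := by
  obtain ⟨Ω, h1, h2, h3, h4, h5⟩ := K.exO hg h hS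
  have d := dat K.ok₀
  have cA := fun a => (cv_Aw hg h a).mono le_rfl h3
  have cp := K.cv_pi hg h.adm.ok (h3.trans h.sub) h4
  have cq := K.cv_qu hg h.adm.ok (h3.trans h.sub) h4 h5
  have t := ((tpzL b.m.J (b.m.pp g.B₀ k₀.x0)).continuous.tendsto _).comp
    (Ps_tendsto (F := g.G₀.F) d h1 h2 (b.m.p k₀.x0) (b.m.pp g.B₀ k₀.x0) cA cp cq)
  rw [← cm_eq (g := k₀.sym g.B₀ g.G₀.F b.m b.W) (G := Ps k₀ g.G₀.F (b.m.p k₀.x0)
    (b.m.pp g.B₀ k₀.x0) b.W (k₀.pi g.B₀ g.G₀.F b.m) (k₀.qu g.B₀ g.G₀.F b.m)) fun θ => by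
    rw [Ps_apply d (fun a x _ => h.adm.conn.cc.sm a x) (fun x hx => cp.smoothAt h1 (h2 hx))
      fun x hx => cq.smoothAt h1 (h2 hx), ← p_sym hg.B₀ hg.G₀ K.ok₀ h.adm.ok h.adm.conn θ, Cut.sym,
      Cnt93.A2_eq, Cnt93.A2_eq]
    rfl] at t
  refine itw_lim t ?_
  filter_upwards [K.nr hg ha h hS, K.γ, K.ok hg ha h hS, K.hi0 hg ha h hS,
    eventually_all.2 fun a => (cA a).mb.smooth d.isCompact_supp h2,
    cp.mb.smooth d.isCompact_supp h2, cq.mb.smooth d.isCompact_supp h2] with n k1 k2 k3 k4 k5 k6 k7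
  refine ⟨k4.2.2.2, fun v => ?_⟩
  rw [R_eq, comp_apply, ← cm_eq (G := Ps ..) fun _ => rfl]
  exact k4.2.2.1.tpz (sym_it' hg d k1 k2 (ha n) h.adm.ok k3 k5 k6 k7) (iff_of_true
    (sym_cont (hg.B n) (ha n).ok k3 fun a => (ContMDiff.continuous ((ha n).conn.cc.sm a)).continuousOn)
    (ContinuousMap.continuous _)) v

/-- **TC**, general form -/
theorem frk' {Ξ : ∀ n, En (Fin (c n).m.N)} {Ξ₁ : α → En (Fin b.m.N)} {Ξ₀ : En (Fin b.m.N)}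
    (hΞ : Tendsto Ξ₁ g.l (𝓝 Ξ₀)) (e : ∀ᶠ n in (g.l : Filter α), ∀ v,
      (c n).m.p (g.ψ n k₀.x0) v = v → Ξ₁ n (u n k₀.x0 v) = u n k₀.x0 (Ξ n v)) (a a' : ℕ) (w : ℂ) :
    Tendsto (fun n => ‖frk _ _ a a' (k₀.pi g.B₀ g.G₀.F b.m k₀.x0 * csE b.m.J w * Ξ₀ *
        k₀.pi g.B₀ g.G₀.F b.m k₀.x0) ∘L R g k k₀ u n - R g k k₀ u n ∘L frk _ _ a a'
      ((k n).pi (g.B n) (g.G n).F (c n).m (k n).x0 * csE (c n).m.J w * Ξ n *
        (k n).pi (g.B n) (g.G n).F (c n).m (k n).x0)‖) g.l (𝓝 0) := by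
  obtain ⟨Ω, -, h2, h3, h4, -⟩ := K.exO hg h hS
  have p := (K.cv_pi hg h.adm.ok (h3.trans h.sub) h4).pt k₀.x0 (h2 ⟨(0, 0), rfl⟩)
  refine itw_lim (((frkL b.m.J (b.m.pp g.B₀ k₀.x0) a a').continuous.tendsto _).comp
    (((p.mul_const (csE b.m.J w)).mul hΞ).mul p)) ?_
  filter_upwards [K.hi0 hg ha h hS, e] with n ⟨q, e0, i, j⟩ k1
  refine ⟨j, fun v => ?_⟩
  rw [R_eq]
  refine i.frk (It.of fun z => ?_) a a' v
  have p := pi_it' (k := k) (k₀ := k₀) hg (ha n).ok q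
  have := k1 ((k n).pi (g.B n) (g.G n).F (c n).m (g.ψ n k₀.x0) z) (congrArg (fun T : En _ => T z)
    (p_pi (k n) (F := (g.G n).F) (x := g.ψ n k₀.x0) (ha n).ok))
  simp only [mul_apply_eq_comp, e0]
  rw [p.app, this, (i.hJ.csE w).app, p.app]

/-- **TC** -/
theorem frk {Ξ : ∀ n, En (Fin (c n).m.N)} {Ξ₀ : En (Fin b.m.N)}
    (hΞ : Tendsto (fun n => u n k₀.x0 ∘L Ξ n ∘L trn (u n k₀.x0)) g.l (𝓝 Ξ₀)) (a a' : ℕ) (w : ℂ) :
    Tendsto (fun n => ‖An.frk _ _ a a' (k₀.pi g.B₀ g.G₀.F b.m k₀.x0 * csE b.m.J w * Ξ₀ *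
        k₀.pi g.B₀ g.G₀.F b.m k₀.x0) ∘L R g k k₀ u n - R g k k₀ u n ∘L An.frk _ _ a a'
      ((k n).pi (g.B n) (g.G n).F (c n).m (k n).x0 * csE (c n).m.J w * Ξ n *
        (k n).pi (g.B n) (g.G n).F (c n).m (k n).x0)‖) g.l (𝓝 0) :=
  K.frk' hg ha h hS hΞ ((K.hi0 hg ha h hS).mono fun _ q v hv => congrArg (fun z => u _ _ (Ξ _ z))
    ((congrArg (fun T : En _ => T v) q.1.me.uu).trans hv)) a a' w

/-- **TC** for the identity -/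
theorem frk1 (a a' : ℕ) (w : ℂ) :
    Tendsto (fun n => ‖An.frk _ _ a a' (k₀.pi g.B₀ g.G₀.F b.m k₀.x0 * csE b.m.J w * 1 *
        k₀.pi g.B₀ g.G₀.F b.m k₀.x0) ∘L R g k k₀ u n - R g k k₀ u n ∘L An.frk _ _ a a'
      ((k n).pi (g.B n) (g.G n).F (c n).m (k n).x0 * csE (c n).m.J w * 1 *
        (k n).pi (g.B n) (g.G n).F (c n).m (k n).x0)‖) g.l (𝓝 0) :=
  K.frk' hg ha h hS (Ξ := fun _ => 1) tendsto_const_nhds (.of_forall fun _ _ _ => rfl) a a' w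

/-- **solutions of the rows converge** -/
theorem cut {σ : ∀ n, CL ((k n).H (g.B n) (c n).m) ((k n).H (g.B n) (c n).m)}
    {σ₀ : CL (k₀.H g.B₀ b.m) (k₀.H g.B₀ b.m)} (h0 : IsCompactOperator σ₀)
    (hσ : Tendsto (fun n => ‖σ₀ ∘L R g k k₀ u n - R g k k₀ u n ∘L σ n‖) g.l (𝓝 0))
    {ψ : ∀ n, (k n).H (g.B n) (c n).m} (hψ : ∀ᶠ n in (g.l : Filter α), ‖ψ n‖ = 1 ∧
      (k n).T (g.B n) (g.G n).F (c n).m (c n).W (ψ n) = σ n (ψ n)) :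
    ∃ ψ₀, ‖ψ₀‖ = 1 ∧ k₀.T g.B₀ g.G₀.F b.m b.W ψ₀ = σ₀ ψ₀ ∧
      Tendsto (fun n => R g k k₀ u n (ψ n)) g.l (𝓝 ψ₀) := by
  obtain ⟨ψ₀, h1, h2, h3⟩ := fr_lim g.l
    (Hol14.fr_sub hg.B₀ h.adm.ok K.ok₀ (Hol14.cn0_of h.adm.conn) h0).1
    (D := fun n => (k n).T (g.B n) (g.G n).F (c n).m (c n).W - σ n) (R := R g k k₀ u) (ψ := ψ)
    (sub_lim (K.T hg ha h hS) hσ)
    ((hψ.and (K.hi0 hg ha h hS)).mono fun n q =>
      ⟨q.1.1, (q.2.2.2.2 _).trans q.1.1, sub_eq_zero.2 q.1.2⟩)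
  exact ⟨ψ₀, h2, sub_eq_zero.1 h3, h1⟩

end CK

end Crest.Agent.X212.Cut31
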