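import Crest.Agent.X212.Csm97.Cut
import Crest.Agent.X212.Cnt93.Main
import Crest.Agent.X212.Loc66.Fcv

/-!
# X212 / Cut31, part Pth (helper31): symbols as functions of fields along the paths of a cut
-/

set_option autoImplicit false
set_option linter.unusedSectionVars false
noncomputable section
open scoped Manifold ContDiff Topology
open Set Function Filter

namespace Crest.Agent.X212.Cut31
open An Cmp73 Csm97 Cnt93
open Wz78 (SA)

variable {E : Type} [NormedAddCommGroup E] [NormedSpace ℝ E] [FiniteDimensional ℝ E]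
  [MeasurableSpace E] [BorelSpace E]
  {HM : Type} [TopologicalSpace HM] {I : ModelWithCorners ℝ E HM} [I.Boundaryless]
  {M : Type} [TopologicalSpace M] [ChartedSpace HM M] [IsManifold I ∞ M]
  [MeasurableSpace M] [BorelSpace M] [SecondCountableTopology M] {ι : Type} [Fintype ι]
  {lam : Type} [Fintype lam] {N : Type} [NormedAddCommGroup N] [NormedSpace ℝ N]
  {κ : Type} [Fintype κ] (k : Cut M lam) (F : Fr I M ι)

theorem tl_th (x : M) (a : ι) (v : E) :
    Num57.tl F x a v = Met55.th (Module.finBasis ℝ E) (Met55.atx F.e x) v a := by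
  obtain ⟨c, rfl⟩ := Num57.exists_comb F x v
  rw [Num57.tl_comb]
  refine Eq.trans ?_ (congrFun (Met55.th_sum (b := Module.finBasis ℝ E) (v := Met55.atx F.e x) c) a).symm
  exact Finset.sum_congr rfl fun b _ => by rw [Met55.fr_P]; rfl

theorem pa_tendsto {R α : Type} [NormedRing R] [NormedAlgebra ℝ R] {l : Filter α}
    {A p p' q q' : α → R} {A₀ p₀ p₀' q₀ q₀' : R} (hA : Tendsto A l (𝓝 A₀)) (hp : Tendsto p l (𝓝 p₀))
    (hp' : Tendsto p' l (𝓝 p₀')) (hq : Tendsto q l (𝓝 q₀)) (hq' : Tendsto q' l (𝓝 q₀')) :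
    Tendsto (fun n => pa (A n) (p n) (p' n) (q n) (q' n)) l (𝓝 (pa A₀ p₀ p₀' q₀ q₀')) :=
  have h : Tendsto (fun n => pa1 (A n) (p n) (p' n)) l (𝓝 (pa1 A₀ p₀ p₀')) :=
    hA.add (((hp.const_smul _).sub_const _).mul (hp'.add ((hA.mul hp).sub (hp.mul hA))))
  h.sub ((hq.mul (hq'.add ((h.mul hq).sub (hq.mul h)))).const_smul _)

theorem Sy_tendsto {α : Type} {l : Filter α} (pp : En κ) {a : α → C(II × Ci, En κ)} {a₀}
    {p : α → En κ} {p₀} (ha : Tendsto a l (𝓝 a₀)) (hp : Tendsto p l (𝓝 p₀)) :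
    Tendsto (fun n => Sy pp (a n) (p n)) l (𝓝 (Sy pp a₀ p₀)) :=
  have h := ((contDiff_Hol t1).continuous.tendsto _).comp ha
  have c := fun x => (cst (En κ)).continuous.tendsto x
  ((((c _).comp ((Eqv71.trnL.continuous.tendsto _).comp
    (((evC 0).continuous.tendsto _).comp h))).mul h).mul ((c _).comp hp)).add
    ((c _).comp (hp.const_sub pp))

/-- restriction to the paths -/
def rs (f : M → N) : C(II × Ci, N) := c2 fun θ s => f (k.γ θ s)

/-- one-forms along the paths -/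
def vf (w : ι → M → N) (θ : Ci) (s : ℝ) : N := ∑ a, k.vel F θ s a • w a (k.γ θ s)

/-- the same, as a continuous map -/
def vs (w : ι → M → N) : C(II × Ci, N) :=
  ∑ a, bilC (ContinuousLinearMap.lsmul ℝ ℝ) (c2 fun θ s => k.vel F θ s a) (rs k (w a))

/-- the corrected connection -/
def Ph (A : ι → M → En κ) (π q : M → En κ) : C(II × Ci, En κ) :=
  pa (vs k F A) (rs k π) (vs k F fun a => F.D a π) (rs k q) (vs k F fun a => F.D a q)

/-- the corrected connection along one path -/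
abbrev ac (A : ι → M → En κ) (π q : M → En κ) (θ : Ci) : ℝ → En κ :=
  a2 (vf k F A θ) (fun s => π (k.γ θ s)) fun s => q (k.γ θ s)

/-- the symbol -/
def Ps (p pp : En κ) (A : ι → M → En κ) (π q : M → En κ) : C(Ci, En κ) :=
  cst _ p * Sy pp (Ph k F A π q) (π k.x0)

variable {k F} (h : Dat I k)
include h

theorem rs_apply {f : M → N} (hf : ∀ x ∈ k.supp, SA I f x) (z : II × Ci) :
    rs k f z = f (k.γ z.2 z.1) :=
  c2_apply (h.cont_on fun x hx => (hf x hx).continuousAt.continuousWithinAt) z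

theorem vs_apply {w : ι → M → N} (hw : ∀ a, ∀ x ∈ k.supp, SA I (w a) x) (z : II × Ci) :
    vs k F w z = vf k F w z.2 z.1 := by
  rw [vs, ContinuousMap.sum_apply]
  refine Finset.sum_congr rfl fun a _ => ?_
  rw [bilC_apply, c2_apply (h.vel_cont F a), rs_apply h (hw a)]; rfl

theorem vf_cont {w : ι → M → N} (hw : ∀ a, ∀ x ∈ k.supp, SA I (w a) x) :
    Continuous (uncurry (vf k F w)) :=
  continuous_finsetSum _ fun a _ => (h.vel_cont F a).smul
    (h.cont_on fun x hx => (hw a x hx).continuousAt.continuousWithinAt)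

theorem cd_path {f : M → N} (hf : ∀ x ∈ k.supp, SA I f x) (θ : Ci) :
    ContDiff ℝ ∞ fun s => f (k.γ θ s) :=
  contMDiff_iff_contDiff.1 fun s => ContMDiffAt.comp s (hf _ ⟨(θ, s), rfl⟩) (h.path θ s)

section fix
variable {A : ι → M → En κ} {π q : M → En κ} (hA : ∀ a, ∀ x ∈ k.supp, SA I (A a) x)
  (hπ : ∀ x ∈ k.supp, SA I π x) (hq : ∀ x ∈ k.supp, SA I q x)
include hπ hq

theorem ac_eq (θ : Ci) (s : ℝ) : ac k F A π q θ s = pa (vf k F A θ s) (π (k.γ θ s))
    (vf k F (fun a => F.D a π) θ s) (q (k.γ θ s)) (vf k F (fun a => F.D a q) θ s) := by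
  simp only [a2, a1, cvd, pa, pa1, (h.der F (hπ _ ⟨(θ, s), rfl⟩).md).deriv,
    (h.der F (hq _ ⟨(θ, s), rfl⟩).md).deriv, vf]

include hA

theorem ac_cont : Continuous (uncurry (ac k F A π q)) :=
  (continuous_pa (vf_cont h hA)
    (h.cont_on fun x hx => (hπ x hx).continuousAt.continuousWithinAt)
    (vf_cont h fun a x hx => Sob92.dv_smoothAt (F.sm a x) (hπ x hx))
    (h.cont_on fun x hx => (hq x hx).continuousAt.continuousWithinAt)
    (vf_cont h fun a x hx => Sob92.dv_smoothAt (F.sm a x) (hq x hx))).congr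
    fun z => (ac_eq h hπ hq z.1 z.2).symm

theorem Ph_eq : Ph k F A π q = c2 (ac k F A π q) := (cm_eq fun z => by
  rw [ac_eq h hπ hq, ← vs_apply h hA, ← rs_apply h hπ, ← rs_apply h hq,
    ← vs_apply (w := fun a => F.D a π) h fun a x hx => Sob92.dv_smoothAt (F.sm a x) (hπ x hx),
    ← vs_apply (w := fun a => F.D a q) h fun a x hx => Sob92.dv_smoothAt (F.sm a x) (hq x hx)]
  rfl).symm

theorem Ps_apply (p pp : En κ) (θ : Ci) : Ps k F p pp A π q θ = p *
    (trn (trp (ac k F A π q 0) 1) * trp (ac k F A π q θ) 1 * π k.x0 + (pp - π k.x0)) := by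
  rw [Ps, ContinuousMap.mul_apply, Sy_apply, Ph_eq h hA hπ hq, Hol_trp (ac_cont h hA hπ hq),
    Hol_trp (ac_cont h hA hπ hq)]
  rfl

end fix

variable {α : Type} {l : Filter α} [l.NeBot] {Ω : Set M} (hΩ : IsOpen Ω) (hs : k.supp ⊆ Ω)
include hΩ hs

theorem rs_tendsto [FiniteDimensional ℝ N] {f : α → M → N} {f₀ : M → N} (hf : Cv I l Ω f f₀) :
    Tendsto (fun n => rs k (f n)) l (𝓝 (rs k f₀)) := by
  refine Metric.tendsto_nhds.2 fun ε hε => ?_
  filter_upwards [hf.unif hΩ h.isCompact_supp hs hε, hf.mb.smooth h.isCompact_supp hs] with n h1 h2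
  rw [ContinuousMap.dist_lt_iff hε]
  intro z
  rw [rs_apply h h2, rs_apply h fun x hx => hf.smoothAt hΩ (hs hx), dist_eq_norm]
  exact h1 _ ⟨(_, _), rfl⟩

theorem vs_tendsto [FiniteDimensional ℝ N] {w : α → ι → M → N} {w₀ : ι → M → N}
    (hw : ∀ a, Cv I l Ω (fun n => w n a) (w₀ a)) :
    Tendsto (fun n => vs k F (w n)) l (𝓝 (vs k F w₀)) :=
  tendsto_finsetSum _ fun a _ => ((bilC (ContinuousLinearMap.lsmul ℝ ℝ)
    (c2 fun θ s => k.vel F θ s a)).continuous.tendsto _).comp (rs_tendsto h hΩ hs (hw a))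

theorem Ps_tendsto (p pp : En κ) {A : α → ι → M → En κ} {π q : α → M → En κ} {A₀ : ι → M → En κ}
    {π₀ q₀ : M → En κ} (hA : ∀ a, Cv I l Ω (fun n => A n a) (A₀ a)) (hπ : Cv I l Ω π π₀)
    (hq : Cv I l Ω q q₀) :
    Tendsto (fun n => Ps k F p pp (A n) (π n) (q n)) l (𝓝 (Ps k F p pp A₀ π₀ q₀)) := by
  exact tendsto_const_nhds.mul (Sy_tendsto pp (pa_tendsto (vs_tendsto h hΩ hs hA)
    (rs_tendsto h hΩ hs hπ) (vs_tendsto h hΩ hs fun a => hπ.D hΩ F.toPre a) (rs_tendsto h hΩ hs hq)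
    (vs_tendsto h hΩ hs fun a => hq.D hΩ F.toPre a)) (hπ.pt _ (hs ⟨(0, 0), rfl⟩)))

end Crest.Agent.X212.Cut31
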